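import Crest.Agent.X212.Rgb37.Top
import Crest.Agent.X212.H7.Defs

/-!
# X212/Rgb37/Main (helper37): `Top2Stmt`, `RgbStmt`
-/

set_option autoImplicit false
set_option linter.unusedSectionVars false

open Set Filter Topology Function
open scoped ContDiff Manifold
open Crest.Agent.R208.F Crest.Agent.X212.Dr59 Crest.Agent.X212.Int54 Crest.Agent.X212.Cyl58
open Crest.Agent.X212.Sep15 (EE IR CM End Box slab px Rg)
open Crest.Agent.X212.Bb31 (Fm Df Pos Cy SP Z2 OE)
open Crest.Agent.X212.Sym24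

noncomputable section

namespace Crest.Agent.X212.Rgb37

theorem top2 : H7.Top2Stmt := fun _ _ _ _ ho sm dg h =>
  ex_of_integ (k := 0) ho (cl_top (k := 0) isOpen_univ sm dg) h

variable {R : CM 2}

theorem sl_prod (g : Df R) (w : R × ℝ → Ext (EE 2 × ℝ)) (s : ℝ) :
    sl s (pm (Sep15.IR 2) (Sep15.IR 2) (Prod.map g id) w) = pm (𝓡 2) (𝓡 2) g (sl s w) := by
  funext x
  rw [sl, pm_prod (p := (x, s)) (g.contMDiff.mdifferentiableAt ne0), dn_pb_prod]
  rfl

/-- a closed form on `R × ℝ` with an exact slice is exact -/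
theorem ex_of_sl {k : ℕ} {w : R × ℝ → Ext (EE 2 × ℝ)} (hw : Cl (Sep15.IR 2) k univ w)
    (h : Ex (𝓡 2) univ (sl 0 w)) : Ex (Sep15.IR 2) univ w := by
  have h1 := st_fst_inl (I := 𝓡 2) (M := R) isOpen_univ isOpen_univ (mem_univ (0 : ℝ))
    (starConvex_univ _) (hw.mono (subset_univ (univ ×ˢ univ))).cls
  rw [Mp.st_cls, cls_eq_zero.2 (by rwa [pm_inl]), map_zero] at h1
  exact (cls_eq_zero.1 h1.symm).mono fun _ _ => ⟨trivial, trivial⟩

/-- interpolation between a closed form and its transform -/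
theorem exists_mid [PreconnectedSpace R] {oR : Fm 2 R} (ho : Ori (𝓡 2) oR) {g : Df R}
    (hg : Pos oR g) {w : R × ℝ → Ext (EE 2 × ℝ)} (hw : Cl (Sep15.IR 2) 2 univ w) :
    ∃ v, Cl (Sep15.IR 2) 2 univ v ∧ (∀ p : R × ℝ, p.2 < -2⁻¹ → v p = w p) ∧
      (∀ p : R × ℝ, 2⁻¹ < p.2 → v p = pm (Sep15.IR 2) (Sep15.IR 2) (Prod.map g id) w p) ∧
      ∀ s, (∀ x, 0 < rat oR (sl s w) x) → ∀ x, 0 < rat oR (sl s v) x := by
  have h2 := hw.pm (.of_contMDiff (g.contMDiff.prodMap contMDiff_id) (mapsTo_univ _ univ))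
  have h0 : Cl (𝓡 2) 2 univ (sl 0 w) := by
    rw [← pm_inl (I := 𝓡 2)]
    exact hw.pm (.of_contMDiff (contMDiff_id.prodMk contMDiff_const) (mapsTo_univ _ _))
  have h3 := ex_of_sl (h2.sub hw) (by
    have := ex_pm_sub (k := 0) ho g hg h0
    rw [← sl_prod] at this
    exact this.congr fun x _ => map_sub _ _ _)
  obtain ⟨l, l1, l2, l3⟩ := h3.deg (k := 1) (h2.sub hw).dg
  let χ : R × ℝ → ℝ := fun p => Real.smoothTransition (p.2 + 2⁻¹)
  have hχ : ContMDiff (Sep15.IR 2) 𝓘(ℝ, ℝ) ∞ χ :=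
    Real.smoothTransition.contDiff.contMDiff.comp (contMDiff_snd.add contMDiff_const)
  have e : ∀ p, dM (Sep15.IR 2) (χ • l) p = df (Sep15.IR 2) χ p * l p +
      χ p • (pm (Sep15.IR 2) (Sep15.IR 2) (Prod.map g id) w p - w p) := fun p => by
    rw [dM_fsmul ne0 ((hχ p).mdifferentiableAt ne0) (l1 p trivial), l3 p trivial]
    rfl
  refine ⟨w + dM (Sep15.IR 2) (χ • l), hw.add (cl_dM isOpen_univ (l1.fsmul fun p _ => hχ p)
    (l2.fsmul _)), fun p hp => ?_, fun p hp => ?_, fun s hs x => ?_⟩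
  · have : χ =ᶠ[𝓝 p] fun _ => 0 := by
      filter_upwards [(isOpen_lt continuous_snd continuous_const).mem_nhds hp] with q hq
      exact Real.smoothTransition.zero_of_nonpos (by linarith [show q.2 < -2⁻¹ from hq])
    rw [Pi.add_apply, e, df_eq_zero this, this.self_of_nhds, zero_mul, zero_smul, add_zero, add_zero]
  · have : χ =ᶠ[𝓝 p] fun _ => 1 := by
      filter_upwards [(isOpen_lt continuous_const continuous_snd).mem_nhds hp] with q hq
      exact Real.smoothTransition.one_of_one_le (by linarith [show 2⁻¹ < q.2 from hq])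
    rw [Pi.add_apply, e, df_eq_zero this, this.self_of_nhds, zero_mul, one_smul, zero_add,
      add_sub_cancel]
  · have d := (Real.smoothTransition.contDiff (n := 1).differentiable one_ne_zero
      (s + 2⁻¹)).hasDerivAt.comp_add_const s 2⁻¹
    have e2 : sl s (w + dM (Sep15.IR 2) (χ • l)) =
        (1 - χ (x, s)) • sl s w + χ (x, s) • pm (𝓡 2) (𝓡 2) g (sl s w) := by
      funext y
      rw [← sl_prod, sl, Pi.add_apply, e, df_comp_snd (p := (y, s)) d]
      simp only [map_add, map_mul, map_smul, map_sub, dn_dT, smul_zero, zero_mul, zero_add,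
        Pi.add_apply, Pi.smul_apply, sl]
      rw [show χ (y, s) = χ (x, s) from rfl]
      module
    have p1 := hs x
    have p2 := (Bb31.pos_ld (g.isLocalDiffeomorph x) (hg x trivial) _).1 (hs (g x))
    have c0 : 0 ≤ χ (x, s) := Real.smoothTransition.nonneg _
    have c1 : χ (x, s) ≤ 1 := Real.smoothTransition.le_one _
    rw [e2, rat_add, rat_smul, rat_smul]
    simp only [Pi.add_apply, Pi.smul_apply, smul_eq_mul]
    rcases c0.eq_or_lt with c | c
    · rw [← c]; linarith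
    · exact add_pos_of_nonneg_of_pos (mul_nonneg (sub_nonneg.2 c1) p1.le) (mul_pos c p2)

theorem rgb' {Y Y' : CM 3} {b : R × ℝ → Y} {h : Df R} {b' : R × ℝ → Y'} (G : Rg b h b')
    {β : Fm 3 Y} {oR : Fm 2 R} [PreconnectedSpace R] (ho : Ori (𝓡 2) oR) (hh : Pos oR h)
    (hβ : Z2 β) : ∃ β' : Fm 3 Y', Z2 β' ∧ (∀ S, SP oR b β S → SP oR b' β' S) ∧
      ∀ p ∉ slab b (Icc (-2⁻¹) 2⁻¹), pm (𝓡 3) (𝓡 3) G.φ β' p = β p := by
  obtain ⟨v, v1, v2, v3, v4⟩ := exists_mid ho (H7.pos_symm hh)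
    (hβ.pm (.of_contMDiff G.o.contMDiff (mapsTo_univ _ univ)))
  have h0 : (0 : ℝ) ∈ Icc (-2⁻¹ : ℝ) 2⁻¹ := ⟨by norm_num, by norm_num⟩
  have hU := (Sep15.isClosed_slab G.o (isCompact_Icc (a := -2⁻¹) (b := 2⁻¹))).isOpen_compl
  have hs : (slab b (Icc (-2⁻¹) 2⁻¹))ᶜ ⊆ G.φ.source := fun y hy => G.mem_of_notMem h0 hy
  obtain ⟨A, a1, a2, -, -, a3⟩ := Bb31.exists_patch (a := β) (b := v) ((OE.of_pd G.φ).mono hU hs)
    (OE.of_oe G.o') (fun x => by
      by_cases hx : x ∈ slab b' (Icc (-2⁻¹) 2⁻¹)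
      · exact .inr (image_mono (subset_univ _) hx)
      · have h4 := G.symm.mem_of_notMem h0 hx
        exact .inl ⟨G.φ.symm x, fun h5 => hx ((G.symm.mem_slab h4).1 h5), G.φ.right_inv h4⟩)
    fun y hy z _ e => by
      have h1 : z.2 ∉ Icc (-2⁻¹ : ℝ) 2⁻¹ := fun k =>
        hy ((G.mem_slab (hs hy)).1 (e ▸ (Sep15.mem_slab G.o').2 k))
      rcases not_and_or.1 h1 with k | k
      · have k1 := not_le.1 k
        have k2 : z.2 < 0 := k1.trans (by norm_num)
        refine ⟨b, G.φ.injOn (G.b_mem.2 k2.ne) (hs hy) ((G.lo z k2).trans e.symm), ?_,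
          G.o.contMDiff.mdifferentiableAt ne0, (v2 z k1).symm⟩
        filter_upwards [(isOpen_lt continuous_snd continuous_const).mem_nhds k2] with q hq
        exact (G.lo q hq).symm
      · have k1 := not_le.1 k
        have k2 : 0 < z.2 := lt_trans (by norm_num) k1
        have m := (h.symm.contMDiff.prodMap
          (contMDiff_id (I := 𝓘(ℝ, ℝ)) (M := ℝ) (n := ∞))).mdifferentiableAt (x := z) ne0
        have key : ∀ q : R × ℝ, 0 < q.2 → G.φ (b (Prod.map h.symm id q)) = b' q := fun q hq =>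
          (G.hi (Prod.map h.symm id q) hq).trans
            (congrArg b' (Prod.ext (h.apply_symm_apply _) rfl))
        refine ⟨b ∘ Prod.map h.symm id, G.φ.injOn ((G.b_mem (p := Prod.map h.symm id z)).2 k2.ne')
          (hs hy)
          ((key z k2).trans e.symm), ?_, (G.o.contMDiff.mdifferentiableAt ne0).comp z m, ?_⟩
        · filter_upwards [(isOpen_lt continuous_const continuous_snd).mem_nhds k2] with q hq
          exact (key q hq).symm
        · rw [v3 z k1, pm_comp (G.o.contMDiff.mdifferentiableAt ne0) m]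
  refine ⟨A, a3 2 (hβ.mono (subset_univ _)) v1, fun S hS x s k => ?_, a1⟩
  rw [show pm (Sep15.IR 2) (𝓡 3) b' A = v from funext fun z => a2 z trivial]
  exact v4 s (fun x => hS x s k) x

theorem rgb : H7.RgbStmt := fun _ _ _ _ _ _ G _ _ _ ho hh hβ hS =>
  let ⟨β', h1, h2, h3⟩ := rgb' G ho hh hβ
  ⟨β', h1, h2 _ hS, h3⟩

end Crest.Agent.X212.Rgb37
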