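import Crest.Agent.X212.Dr59.Sph
import Crest.Agent.X212.Bb31.Push

/-!
# X212/Rgb37/Top (helper37): top forms with integral zero are exact

`bd_shell`, `loc_mul`, `exists_bump`, `bd_top`, `ex_of_integ`, `ex_pm_sub`.
-/

set_option autoImplicit false
set_option linter.unusedSectionVars false
set_option linter.style.haveILetI false

open Set Filter Topology Function Module Metric MeasureTheory
open scoped ContDiff Manifold
open Crest.Agent.R208 Crest.Agent.R208.F Crest.Agent.R208.FI Crest.Agent.X212.Dr59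
  Crest.Agent.X212.Int54
open Crest.Agent.X212.Sep15 (EE CM)

noncomputable section

namespace Crest.Agent.X212.Rgb37

variable {k : ℕ}

theorem bd_shell (c : EE (k + 2)) {r : ℝ} (hr : 0 < r) :
    Bd 𝓘(ℝ, EE (k + 2)) (k + 1) (ball c (3 * r) \ closedBall c r) 1 := by
  have h0 : Bd 𝓘(ℝ, EE (k + 2)) (k + 1) ({0}ᶜ : Set (EE (k + 2))) 1 := pun_self ▸ bd_pun le_rfl
  have mem : ∀ {x : EE (k + 2)}, x ∈ ball c (3 * r) \ closedBall c r ↔
      ‖x - c‖ < 3 * r ∧ r < ‖x - c‖ := by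
    intro x
    simp [dist_eq_norm]
  have ne : ∀ {x : EE (k + 2)}, x ∈ ball c (3 * r) \ closedBall c r → x - c ≠ 0 := fun hx =>
    norm_pos_iff.1 (hr.trans (mem.1 hx).2)
  have hf : Mp 𝓘(ℝ, EE (k + 2)) 𝓘(ℝ, EE (k + 2)) ({0}ᶜ : Set (EE (k + 2)))
      (ball c (3 * r) \ closedBall c r) fun x => c + (2 * r / ‖x‖) • x := by
    refine ⟨fun x hx => (contDiffAt_const.add ((contDiffAt_const.div (contDiffAt_norm ℝ hx)
      (norm_ne_zero_iff.2 hx)).smul contDiffAt_id)).contMDiffAt, fun x hx => mem.2 ?_⟩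
    rw [add_sub_cancel_left, norm_smul, Real.norm_of_nonneg (by positivity),
      div_mul_cancel₀ _ (norm_ne_zero_iff.2 hx)]
    constructor <;> linarith
  have hg : Mp 𝓘(ℝ, EE (k + 2)) 𝓘(ℝ, EE (k + 2)) (ball c (3 * r) \ closedBall c r)
      ({0}ᶜ : Set (EE (k + 2))) fun x => x - c :=
    ⟨fun x _ => (contDiffAt_id.sub contDiffAt_const).contMDiffAt, fun x hx => ne hx⟩
  refine h0.of_inj _ (st_inj_of_ht (isOpen_ball.sdiff isClosed_closedBall) hf hg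
    (G := fun p => c + ((1 - p.2) * (2 * r / ‖p.1 - c‖) + p.2) • (p.1 - c))
    ⟨fun x hx t _ => ?_, fun x hx t ht => mem.2 ?_⟩ (fun x _ => by simp) fun x _ => by simp)
  · have h1 : ContMDiffAt (𝓘(ℝ, EE (k + 2)).prod 𝓘(ℝ, ℝ)) 𝓘(ℝ, EE (k + 2)) ∞
        (fun p : EE (k + 2) × ℝ => p.1 - c) (x, t) := contMDiffAt_fst.sub contMDiffAt_const
    have h2 : ContMDiffAt (𝓘(ℝ, EE (k + 2)).prod 𝓘(ℝ, ℝ)) 𝓘(ℝ, ℝ) ∞
        (fun p : EE (k + 2) × ℝ => ‖p.1 - c‖) (x, t) :=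
      (contDiffAt_norm ℝ (ne hx)).contMDiffAt.comp (x, t) h1
    exact contMDiffAt_const.add ((((contMDiffAt_const.sub contMDiffAt_snd).mul
      (contMDiffAt_const.div₀ h2 (norm_ne_zero_iff.2 (ne hx)))).add contMDiffAt_snd).smul h1)
  · have h1 := mem.1 hx
    have h2 := sub_nonneg.2 ht.2
    have h3 := ht.1
    rw [add_sub_cancel_left, norm_smul, Real.norm_of_nonneg (by positivity), add_mul, mul_assoc,
      div_mul_cancel₀ _ (norm_ne_zero_iff.2 (ne hx))]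
    constructor <;> nlinarith

variable {M : CM (k + 2)}

theorem rk : finrank ℝ (EE (k + 2)) = k + 2 := by simp

/-- smooth forms of top degree are closed -/
theorem cl_top {U : Set M} (hU : IsOpen U) {a : M → Ext (EE (k + 2))} (h : Sm (𝓡 (k + 2)) U a)
    (d : Dg (k + 2) U a) : Cl (𝓡 (k + 2)) (k + 2) U a :=
  ⟨h, d, fun x hx => (d.dM (I := 𝓡 (k + 2)) hU x hx).eq_zero (by simp)⟩

/-- forms supported near a point are multiples of each other -/
theorem loc_mul (x : M) : ∃ W : Set M, IsOpen W ∧ x ∈ W ∧ ∀ a b : M → Ext (EE (k + 2)),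
    Cl (𝓡 (k + 2)) (k + 2) univ a → Cl (𝓡 (k + 2)) (k + 2) univ b → (∀ y ∉ W, a y = 0) →
    (∀ y ∉ W, b y = 0) → ¬Ex (𝓡 (k + 2)) univ b → ∃ s : ℝ, Ex (𝓡 (k + 2)) univ (a - s • b) := by
  let φ := (Glue52.chE (𝓡 (k + 2)) x).symm
  let c := extChartAt (𝓡 (k + 2)) x x
  have hc : c ∈ φ.source := mem_extChartAt_target x
  obtain ⟨ε, hε, hs⟩ := Metric.isOpen_iff.1 φ.open_source c hc
  obtain ⟨r, hr, rfl⟩ : ∃ r > (0 : ℝ), ε = 3 * r := ⟨ε / 3, by positivity, by ring⟩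
  have s1 : closedBall c r ⊆ ball c (3 * r) := closedBall_subset_ball (by linarith)
  have hU := pd_open φ isOpen_ball hs
  have hK : IsCompact (φ '' closedBall c r) := (isCompact_closedBall c r).image_of_continuousOn
    (φ.contMDiffOn_toFun.continuousOn.mono (s1.trans hs))
  have hV := hK.isClosed.isOpen_compl
  have e1 : φ '' ball c (3 * r) ∩ (φ '' closedBall c r)ᶜ = φ '' (ball c (3 * r) \ closedBall c r) :=
    ((φ.injOn.mono hs).image_sdiff_subset s1).symm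
  have e2 : ∀ y, y ∈ φ '' ball c (3 * r) ∪ (φ '' closedBall c r)ᶜ := fun y =>
    (em (y ∈ φ '' closedBall c r)).imp_left fun h => image_mono s1 h
  have hb : Bd (𝓡 (k + 2)) (k + 1) (φ '' ball c (3 * r) ∩ (φ '' closedBall c r)ᶜ) 1 := by
    rw [e1]
    exact (bd_pd φ (isOpen_ball.sdiff isClosed_closedBall) (sdiff_subset.trans hs)).2 (bd_shell c hr)
  have hz : HZ (𝓡 (k + 2)) (k + 1 + 1) (φ '' ball c (3 * r)) := (hz_pd φ isOpen_ball hs).2
    (hz_star isOpen_ball (mem_ball_self hε) ((convex_ball c _).starConvex (mem_ball_self hε)))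
  obtain ⟨χ, hχ⟩ := exists_cut (I := 𝓡 (k + 2)) hU hV
  have key : ∀ a : M → Ext (EE (k + 2)), ∀ ha : Cl (𝓡 (k + 2)) (k + 2) univ a,
      (∀ y ∉ φ '' ball c r, a y = 0) → ∃ e, hχ.dl (k + 1) e = (ha.mono (subset_univ _)).cls :=
    fun a ha h0 => mv_ker hU hV hχ (hz.eq _) (cls_eq_zero.2 (ex_of_zero fun y hy =>
      h0 y fun h => hy (image_mono ball_subset_closedBall h)))
  refine ⟨φ '' ball c r, pd_open φ isOpen_ball (ball_subset_closedBall.trans (s1.trans hs)),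
    ⟨c, mem_ball_self hr, extChartAt_to_inv x⟩, fun a b ha hb' a0 b0 hn => ?_⟩
  obtain ⟨e, he⟩ := key a ha a0
  obtain ⟨e', he'⟩ := key b hb' b0
  obtain ⟨s, hs⟩ := Bd.span (ι := Unit) hb (e := fun _ => e') (fun s hs _ => by
    rw [Fintype.sum_unique] at hs
    refine (smul_eq_zero.1 hs).resolve_right fun h => hn ?_
    rw [h, map_zero] at he'
    exact (cls_eq_zero.1 he'.symm).mono fun y _ => e2 y) e
  rw [Fintype.sum_unique] at hs
  rw [← hs, map_smul, he', ← cls_smul] at he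
  exact ⟨_, (cls_eq.1 he.symm).mono fun y _ => e2 y⟩

variable {o : M → Ext (EE (k + 2))}

theorem integ_ex (ho : Ori (𝓡 (k + 2)) o) {a : M → Ext (EE (k + 2))} (h : Ex (𝓡 (k + 2)) univ a) :
    integ (𝓡 (k + 2)) o a = 0 := by
  obtain ⟨p, hp, dp⟩ := h
  rw [← stokes_closed ho fun x => hp x trivial]
  exact integ_congr fun x => congrArg _ (dp x trivial).symm

theorem integ_sub_smul (ho : Ori (𝓡 (k + 2)) o) {a b : M → Ext (EE (k + 2))}
    (ha : Sm (𝓡 (k + 2)) univ a) (hb : Sm (𝓡 (k + 2)) univ b) (s : ℝ) :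
    integ (𝓡 (k + 2)) o (a - s • b) = integ (𝓡 (k + 2)) o a - s * integ (𝓡 (k + 2)) o b := by
  rw [integ_sub (ho.intOn (fun x => (ha x trivial).of_le (by simp)) _)
    (ho.intOn (fun x => ((hb.smul s) x trivial).of_le (by simp)) _), integ_smul]

/-- a non-negative bump form -/
theorem exists_bump (ho : Ori (𝓡 (k + 2)) o) {W : Set M} (hW : IsOpen W) (hn : W.Nonempty) :
    ∃ b : M → Ext (EE (k + 2)), Cl (𝓡 (k + 2)) (k + 2) univ b ∧ (∀ y ∉ W, b y = 0) ∧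
      (∀ y, 0 ≤ rat o b y) ∧ (∀ y ∈ W, 0 < rat o b y) ∧ 0 < integ (𝓡 (k + 2)) o b := by
  obtain ⟨f, fs, fd, f0⟩ := hW.exists_contMDiff_support_eq (𝓡 (k + 2)) (n := ⊤)
  have e : ∀ y, rat o (f • dp (k + 2) o) y = f y := fun y => by
    have := Orx52.tp_dp o y
    rw [rk] at this
    rw [rat_fsmul, Pi.mul_apply, rat, this, div_self (ho.ne y), mul_one]
  refine ⟨f • dp (k + 2) o, cl_top isOpen_univ (Sm.fsmul (fun x _ => fd x)
    (Sm.dp _ fun x _ => ho.sm x)) (Dg.fsmul f fun x _ => T.isDeg_dpl _ _), fun y hy => ?_,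
    fun y => e y ▸ f0 y, fun y hy => e y ▸ (f0 y).lt_of_ne' (by rwa [← fs] at hy), ?_⟩
  · rw [← fs, notMem_support] at hy
    rw [Pi.smul_apply', hy, zero_smul]
  · haveI := ho.openPos
    haveI := ho.finCpt
    rw [integ, funext e]
    obtain ⟨y, hy⟩ := hn
    exact fd.continuous.integral_pos_of_hasCompactSupport_nonneg_nonzero
      (HasCompactSupport.of_compactSpace f) f0 (by rwa [← fs] at hy)

theorem exists_mul [PreconnectedSpace M] (ho : Ori (𝓡 (k + 2)) o) {a b : M → Ext (EE (k + 2))}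
    (ha : Cl (𝓡 (k + 2)) (k + 2) univ a) {x₀ : M}
    (h0 : ∃ W ∈ 𝓝 x₀, ∀ c, Cl (𝓡 (k + 2)) (k + 2) univ c → (∀ y ∉ W, c y = 0) →
      ∃ s : ℝ, Ex (𝓡 (k + 2)) univ (c - s • b)) : ∃ s : ℝ, Ex (𝓡 (k + 2)) univ (a - s • b) := by
  let S : Set M := {x | ∃ W ∈ 𝓝 x, ∀ c, Cl (𝓡 (k + 2)) (k + 2) univ c → (∀ y ∉ W, c y = 0) →
    ∃ s : ℝ, Ex (𝓡 (k + 2)) univ (c - s • b)}
  have h1 : IsOpen S := isOpen_iff_mem_nhds.2 fun x ⟨W, hW, h⟩ =>
    mem_of_superset (eventually_mem_nhds_iff.2 hW) fun y hy => ⟨W, hy, h⟩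
  have h2 : IsClosed S := isClosed_of_closure_subset fun x hx => by
    obtain ⟨D, hD, xD, h⟩ := loc_mul x
    obtain ⟨y, yD, W, hW, h'⟩ := mem_closure_iff.1 hx D hD xD
    obtain ⟨e, e1, e2, -, -, e3⟩ := exists_bump ho (hD.inter isOpen_interior)
      ⟨y, yD, mem_interior_iff_mem_nhds.2 hW⟩
    refine ⟨D, hD.mem_nhds xD, fun c hc c0 => ?_⟩
    obtain ⟨s, hs⟩ := h c e hc e1 c0 (fun z hz => e2 z fun k => hz k.1)
      fun k => e3.ne' (integ_ex ho k)
    obtain ⟨t, ht⟩ := h' e e1 fun z hz => e2 z fun k => hz (interior_subset k.2)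
    refine ⟨s * t, ?_⟩
    convert hs.add (ht.smul s) using 1
    module
  have h3 : S = univ := IsClopen.eq_univ ⟨h2, h1⟩ ⟨x₀, h0⟩
  choose W hW h using fun x : M => (h3 ▸ mem_univ x : x ∈ S)
  obtain ⟨T, ρ, r1, r2, -, r4⟩ := exists_pou (I := 𝓡 (k + 2)) isCompact_univ
    (fun x => interior (W x)) (fun _ => isOpen_interior)
    fun x _ => mem_iUnion.2 ⟨x, mem_interior_iff_mem_nhds.2 (hW x)⟩
  choose s hs using fun x => h x (ρ x • a)
    (cl_top isOpen_univ (ha.sm.fsmul fun y _ => r1 x y) (ha.dg.fsmul _)) fun y hy => by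
      rw [Pi.smul_apply', image_eq_zero_of_notMem_tsupport
        fun k => hy (interior_subset (r2 x k)), zero_smul]
  refine ⟨∑ x ∈ T, s x, (ex_sum (s := T) fun x _ => hs x).congr fun y _ => ?_⟩
  simp only [Finset.sum_apply, Pi.sub_apply, Pi.smul_apply', Pi.smul_apply, Finset.sum_sub_distrib,
    ← Finset.sum_smul, r4 y trivial, one_smul]

/-- **a form of top degree with integral zero is exact** -/
theorem ex_of_integ [PreconnectedSpace M] (ho : Ori (𝓡 (k + 2)) o) {a : M → Ext (EE (k + 2))}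
    (ha : Cl (𝓡 (k + 2)) (k + 2) univ a) (h : integ (𝓡 (k + 2)) o a = 0) :
    Ex (𝓡 (k + 2)) univ a := by
  rcases isEmpty_or_nonempty M with _ | ⟨⟨x⟩⟩
  · exact ex_of_zero fun y _ => isEmptyElim y
  obtain ⟨D, hD, xD, h1⟩ := loc_mul x
  obtain ⟨e, e1, e2, -, -, e3⟩ := exists_bump ho hD ⟨x, xD⟩
  obtain ⟨s, hs⟩ := exists_mul ho ha ⟨D, hD.mem_nhds xD, fun c hc c0 =>
    h1 c e hc e1 c0 e2 fun k => e3.ne' (integ_ex ho k)⟩
  have h2 := integ_ex ho hs
  rw [integ_sub_smul ho ha.sm e1.sm, h, zero_sub, neg_eq_zero, mul_eq_zero] at h2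
  simpa [h2.resolve_right e3.ne'] using hs

theorem ex_sub_of_integ [PreconnectedSpace M] (ho : Ori (𝓡 (k + 2)) o) {a b : M → Ext (EE (k + 2))}
    (ha : Cl (𝓡 (k + 2)) (k + 2) univ a) (hb : Cl (𝓡 (k + 2)) (k + 2) univ b)
    (h : integ (𝓡 (k + 2)) o a = integ (𝓡 (k + 2)) o b) : Ex (𝓡 (k + 2)) univ (a - b) :=
  ex_of_integ ho (ha.sub hb) (by
    have := integ_sub_smul ho ha.sm hb.sm 1
    rwa [one_smul, one_mul, h, sub_self] at this)

/-- an orientation preserving diffeomorphism acts trivially on top forms -/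
theorem ex_pm_sub [PreconnectedSpace M] (ho : Ori (𝓡 (k + 2)) o)
    (h : M ≃ₘ^∞⟮𝓡 (k + 2), 𝓡 (k + 2)⟯ M) (hp : SameOn (pm (𝓡 (k + 2)) (𝓡 (k + 2)) h o) o univ)
    {a : M → Ext (EE (k + 2))} (ha : Cl (𝓡 (k + 2)) (k + 2) univ a) :
    Ex (𝓡 (k + 2)) univ (pm (𝓡 (k + 2)) (𝓡 (k + 2)) h a - a) :=
  ex_sub_of_integ ho (ha.pm (.of_contMDiff h.contMDiff (mapsTo_univ _ _))) ha
    (integ_bij rfl ho ho h.contMDiff h.bijective hp.symm a).symm

end Crest.Agent.X212.Rgb37
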